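import Mathlib
import Vale.Agent.P054.Affine

/-! Distinct distances in dense subsets of affine grids. -/

namespace Vale.Agent.Results.P054.AffineGrid

open Finset

theorem result : ∀ d : ℕ, 3 ≤ d → ∃ c : ℝ, 0 < c ∧
    ∀ (T : ℕ), 1 ≤ T → ∀ (L : (Fin d → ℝ) →ₗ[ℝ] EuclideanSpace ℝ (Fin d)), Function.Injective L →
    ∀ (x₀ : EuclideanSpace ℝ (Fin d)),
      (∀ P : Finset (Fin d → ℤ), (∀ p ∈ P, ∀ i, |p i| ≤ (T : ℤ)) → 2 ≤ P.card →
        c * (P.card : ℝ) ^ 2 / (T : ℝ) ^ (2 * d - 2) ≤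
          (P.offDiag.image fun p => dist (x₀ + L fun i => (p.1 i : ℝ))
            (x₀ + L fun i => (p.2 i : ℝ))).card) ∧
      (let P := Fintype.piFinset (fun _ : Fin d => Finset.Icc (-(T : ℤ)) T)
       c * (P.card : ℝ) ^ ((2 : ℝ) / d) ≤
          (P.offDiag.image fun p => dist (x₀ + L fun i => (p.1 i : ℝ))
            (x₀ + L fun i => (p.2 i : ℝ))).card) := by
  intro d hd
  obtain ⟨c₁, hc₁, h₁⟩ := Vale.Agent.P054.affine_grid_distances hd
  obtain ⟨c₂, hc₂, h₂⟩ := Vale.Agent.P054.full_affine_grid hd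
  refine ⟨min c₁ c₂, lt_min hc₁ hc₂, fun T hT L hL x₀ => ⟨fun P hP hn => ?_, ?_⟩⟩
  · refine le_trans ?_ (h₁ T hT L hL x₀ P hP hn)
    gcongr
    exact min_le_left _ _
  · intro P
    refine le_trans ?_ (h₂ T hT L hL x₀)
    gcongr
    exact min_le_right _ _

end Vale.Agent.Results.P054.AffineGrid
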